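import Vale.Agent.P274.Full.Tool.Map
import Vale.Agent.P274.Full.SA.Interior
import Vale.Agent.P274.Full.SA.Tail
import Mathlib.Topology.Baire.Lemmas
import Mathlib.Topology.Baire.CompleteMetrizable

/-!
Uniform windows for semialgebraic families near parameter `0+`.
-/

open MvPolynomial Set Filter Topology Metric

namespace Vale.Agent.P274.Full.HornWin

noncomputable section

variable {ι : Type} [Fintype ι]

/-- A point with a last coordinate. -/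
def pt (x : ι → ℝ) (t : ℝ) : ι ⊕ Unit → ℝ := Sum.elim x fun _ => t

omit [Fintype ι] in
@[simp] theorem pt_inl (x : ι → ℝ) (t : ℝ) (i : ι) : pt x t (Sum.inl i) = x i := rfl

omit [Fintype ι] in
@[simp] theorem pt_inr (x : ι → ℝ) (t : ℝ) (u : Unit) : pt x t (Sum.inr u) = t := rfl

omit [Fintype ι] in
theorem pt_eta (y : ι ⊕ Unit → ℝ) : pt (y ∘ Sum.inl) (y (Sum.inr ())) = y := by
  funext i; cases i <;> simp [pt]

/-- The cylinder of height `δ` over a ball. -/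
def cyl (c : ι → ℝ) (r δ : ℝ) : Set (ι ⊕ Unit → ℝ) :=
  {y | y ∘ Sum.inl ∈ ball c r ∧ y (Sum.inr ()) ∈ Ioo 0 δ}

theorem pt_mem_cyl {c x : ι → ℝ} {r δ t : ℝ} :
    pt x t ∈ cyl c r δ ↔ x ∈ ball c r ∧ t ∈ Ioo 0 δ := Iff.rfl

theorem isOpen_cyl (c : ι → ℝ) (r δ : ℝ) : IsOpen (cyl c r δ) :=
  (isOpen_ball.preimage (by fun_prop : Continuous fun y : ι ⊕ Unit → ℝ => y ∘ Sum.inl)).inter
    (isOpen_Ioo.preimage (continuous_apply (Sum.inr ())))

theorem cyl_mono {c c' : ι → ℝ} {r r' δ δ' : ℝ} (h : ball c' r' ⊆ ball c r) (hd : δ' ≤ δ) :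
    cyl c' r' δ' ⊆ cyl c r δ :=
  fun _ hy => ⟨h hy.1, hy.2.1, hy.2.2.trans_le hd⟩

theorem SA.ball' (c : ι → ℝ) {r : ℝ} (hr : 0 < r) : SA (ball c r) :=
  (SA.all fun i => SA.lt ((X i - C (c i)) ^ 2) (C (r ^ 2))).of_eq (by
    ext x
    simp only [mem_ofPred_eq, mem_ball, map_pow, map_sub, eval_X, eval_C]
    rw [dist_pi_lt_iff hr]
    refine forall_congr' fun i => ?_
    rw [sq_lt_sq, abs_of_pos hr, Real.dist_eq])

theorem SA.cyl (c : ι → ℝ) {r : ℝ} (hr : 0 < r) (δ : ℝ) : SA (cyl c r δ) :=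
  ((SA.ball' c hr).reindex Sum.inl).inter
    (((SA.coord_pos (Sum.inr ())).inter
      (SA.lt (X (Sum.inr ())) (C δ))).of_eq (by ext y; simp; rfl))

/-- A countable semialgebraic cover of a ball has a member with interior. -/
theorem baireSA {c : ι → ℝ} {r : ℝ} (hr : 0 < r) {A : ℕ → Set (ι → ℝ)} (hA : ∀ n, SA (A n))
    (h : ball c r ⊆ ⋃ n, A n) :
    ∃ (n : ℕ) (c' : ι → ℝ) (r' : ℝ), 0 < r' ∧ ball c' r' ⊆ ball c r ∧ ball c' r' ⊆ A n := by
  by_contra hne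
  push Not at hne
  have hd : ∀ n, Dense (closure (A n ∩ ball c r))ᶜ := by
    intro n
    refine interior_eq_empty_iff_dense_compl.1 (saInterior ι _ ((hA n).inter (SA.ball' c hr))
      (eq_empty_iff_forall_notMem.2 fun x hx => ?_))
    obtain ⟨r', hr', hs⟩ := isOpen_iff.1 isOpen_interior x hx
    exact hne n x r' hr' ((hs.trans interior_subset).trans inter_subset_right)
      ((hs.trans interior_subset).trans inter_subset_left)
  obtain ⟨x, hx, hxb⟩ := (dense_iInter_of_isOpen (fun n => isClosed_closure.isOpen_compl) hd)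
    |>.inter_open_nonempty _ isOpen_ball (nonempty_ball.2 hr) |>.imp fun x hx => And.symm hx
  obtain ⟨n, hn⟩ := mem_iUnion.1 (h hxb)
  exact mem_iInter.1 hx n (subset_closure ⟨hn, hxb⟩)

/-- The points above which all small positive parameters lie in `S`. -/
def ev (S : Set (ι ⊕ Unit → ℝ)) : Set (ι → ℝ) := {x | ∀ᶠ t in 𝓝[>] (0 : ℝ), pt x t ∈ S}

omit [Fintype ι] in
theorem mem_ev {S : Set (ι ⊕ Unit → ℝ)} {x : ι → ℝ} :
    x ∈ ev S ↔ ∃ d, 0 < d ∧ ∀ t, 0 < t ∧ t < d → pt x t ∈ S := by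
  rw [ev, mem_ofPred_eq, (nhdsGT_basis (0 : ℝ)).eventually_iff]
  simp [mem_Ioo]

theorem ev_or {S : Set (ι ⊕ Unit → ℝ)} (hS : SA S) (x : ι → ℝ) : x ∈ ev S ∨ x ∈ ev Sᶜ :=
  saTail ι S hS x

variable (hp : SAProjStmt)
include hp

theorem SA.ev {S : Set (ι ⊕ Unit → ℝ)} (hS : SA S) : SA (ev S) := by
  have h : SA {z : (ι ⊕ Unit) ⊕ Unit → ℝ |
      (0 < z (Sum.inr ()) ∧ z (Sum.inr ()) < z (Sum.inl (Sum.inr ()))) →
        (fun i => z ((Sum.map Sum.inl id : ι ⊕ Unit → (ι ⊕ Unit) ⊕ Unit) i)) ∈ S} :=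
    ((SA.coord_pos _).and ((SA.lt (X (Sum.inr ())) (X (Sum.inl (Sum.inr ())))).of_eq
      (by simp))).imp (hS.reindex _)
  refine (((SA.coord_pos (Sum.inr ())).and (h.forall_real hp)).exists_real hp).of_eq ?_
  ext x
  rw [mem_ev]
  simp only [mem_ofPred_eq, Sum.elim_inr, Sum.elim_inl]
  refine exists_congr fun d => and_congr_right fun _ => forall_congr' fun t =>
    imp_congr_right fun _ => iff_of_eq (congrArg (· ∈ S) ?_)
  funext i; rcases i with i | u <;> rfl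

theorem SA.all_below {S : Set (ι ⊕ Unit → ℝ)} (hS : SA S) (d : ℝ) :
    SA {x : ι → ℝ | ∀ t, 0 < t ∧ t < d → pt x t ∈ S} := by
  have h : SA {z : ι ⊕ Unit → ℝ | (0 < z (Sum.inr ()) ∧ z (Sum.inr ()) < d) → z ∈ S} :=
    ((SA.coord_pos _).and ((SA.lt (X (Sum.inr ())) (C d)).of_eq (by simp))).imp hS
  exact (h.forall_real hp).of_eq (by ext x; simp [pt])

/-- A property holding eventually above every point of a ball holds on a cylinder. -/
theorem uniform {S : Set (ι ⊕ Unit → ℝ)} (hS : SA S) {c : ι → ℝ} {r : ℝ} (hr : 0 < r)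
    (h : ball c r ⊆ ev S) :
    ∃ (c' : ι → ℝ) (r' δ : ℝ), 0 < r' ∧ 0 < δ ∧ ball c' r' ⊆ ball c r ∧ cyl c' r' δ ⊆ S := by
  obtain ⟨n, c', r', hr', hsub, hn⟩ := baireSA hr
    (A := fun n : ℕ => {x | ∀ t, 0 < t ∧ t < 1 / ((n : ℝ) + 1) → pt x t ∈ S})
    (fun n => SA.all_below hp hS _) (fun x hx => by
      obtain ⟨d, hd, hdS⟩ := mem_ev.1 (h hx)
      obtain ⟨n, hn⟩ := exists_nat_one_div_lt hd
      exact mem_iUnion.2 ⟨n, fun t ht => hdS t ⟨ht.1, ht.2.trans hn⟩⟩)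
  refine ⟨c', r', 1 / ((n : ℝ) + 1), hr', by positivity, hsub, fun y hy => ?_⟩
  rw [← pt_eta y]
  exact hn hy.1 _ hy.2

/-- A property holding somewhere in every cylinder holds throughout some cylinder. -/
theorem window {S : Set (ι ⊕ Unit → ℝ)} (hS : SA S) {c : ι → ℝ} {r : ℝ} (hr : 0 < r)
    (h : ∀ c' r' δ, 0 < r' → 0 < δ → ball c' r' ⊆ ball c r → ∃ y ∈ cyl c' r' δ, y ∈ S) :
    ∃ (c' : ι → ℝ) (r' δ : ℝ), 0 < r' ∧ 0 < δ ∧ ball c' r' ⊆ ball c r ∧ cyl c' r' δ ⊆ S := by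
  obtain ⟨n, c', r', hr', hsub, hn⟩ := baireSA hr
    (A := fun n : ℕ => if n = 0 then ev S else
      {x | ∀ t, 0 < t ∧ t < 1 / (n : ℝ) → pt x t ∈ Sᶜ})
    (fun n => by
      by_cases hn : n = 0
      · simpa [hn] using SA.ev hp hS
      · simpa [hn] using SA.all_below hp hS.compl _) (fun x _ => by
      rcases ev_or hS x with hx | hx
      · exact mem_iUnion.2 ⟨0, by simpa using hx⟩
      · obtain ⟨d, hd, hdS⟩ := mem_ev.1 hx
        obtain ⟨n, hn⟩ := exists_nat_one_div_lt hd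
        refine mem_iUnion.2 ⟨n + 1, ?_⟩
        rw [if_neg n.succ_ne_zero]
        exact fun t ht => hdS t ⟨ht.1, ht.2.trans (by simpa using hn)⟩)
  rcases eq_or_ne n 0 with rfl | hn0
  · obtain ⟨c'', r'', δ, h1, h2, h3, h4⟩ := uniform hp hS hr' (by simpa using hn)
    exact ⟨c'', r'', δ, h1, h2, h3.trans hsub, h4⟩
  · rw [if_neg hn0] at hn
    have hpos : (0 : ℝ) < 1 / (n : ℝ) := by positivity
    obtain ⟨y, hy, hyS⟩ := h c' r' (1 / (n : ℝ)) hr' hpos hsub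
    exact absurd (by rwa [pt_eta] : pt (y ∘ Sum.inl) (y (Sum.inr ())) ∈ S) (hn hy.1 _ hy.2)

end

end Vale.Agent.P274.Full.HornWin
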