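import Vale.Agent.P274.Full.Horn.Base
import Mathlib.Analysis.Calculus.Deriv.MeanValue
import Mathlib.Analysis.Calculus.FDeriv.Measurable
import Mathlib.Analysis.SpecialFunctions.ExpDeriv
import Mathlib.MeasureTheory.Integral.IntervalIntegral.FundThmCalculus

/-!
A bounded semialgebraic function on a cylinder has, on a smaller cylinder, derivatives bounded in
the base directions and by `1 / t` in the last direction.
-/

open MvPolynomial Set Filter Topology Metric MeasureTheory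

namespace Vale.Agent.P274.Full.HornWin

noncomputable section

variable {ι : Type} [Fintype ι]

/-- Unit vector of a coordinate. -/
def unitVec (j : ι ⊕ Unit) : ι ⊕ Unit → ℝ := by
  classical exact Pi.single j 1

omit [Fintype ι] in
theorem unitVec_self (j : ι ⊕ Unit) : unitVec j j = 1 := by simp [unitVec]

omit [Fintype ι] in
theorem unitVec_ne {i j : ι ⊕ Unit} (h : i ≠ j) : unitVec j i = 0 := by simp [unitVec, h]

omit [Fintype ι] in
theorem hasDerivAt_line {f : (ι ⊕ Unit → ℝ) → ℝ} {y v : ι ⊕ Unit → ℝ} {a : ℝ}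
    (h : LineDifferentiableAt ℝ f (y + a • v) v) :
    HasDerivAt (fun s : ℝ => f (y + s • v)) (lineDeriv ℝ f (y + a • v) v) a := by
  have h' : HasDerivAt (fun s : ℝ => f (y + a • v + s • v)) (lineDeriv ℝ f (y + a • v) v)
      (a - a) := by
    rw [sub_self]; exact h.hasLineDerivAt
  refine (h'.comp_sub_const a a).congr_of_eventuallyEq (Eventually.of_forall fun s => ?_)
  simp only [add_assoc, ← add_smul, add_sub_cancel]

omit [Fintype ι] in
theorem pt_line (x : ι → ℝ) (t s : ℝ) :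
    pt x 0 + s • unitVec (Sum.inr ()) = pt x s ∧
      pt x t + s • unitVec (Sum.inr ()) = pt x (t + s) := by
  constructor <;> funext i <;> cases i <;> simp [unitVec_self, unitVec_ne]

omit [Fintype ι] in
/-- The derivative in the last variable along a vertical line. -/
theorem hasDerivAt_last {f : (ι ⊕ Unit → ℝ) → ℝ} {x : ι → ℝ} {t : ℝ}
    (h : LineDifferentiableAt ℝ f (pt x t) (unitVec (Sum.inr ()))) :
    HasDerivAt (fun s => f (pt x s)) (lineDeriv ℝ f (pt x t) (unitVec (Sum.inr ()))) t := by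
  have h' := hasDerivAt_line (f := f) (y := pt x 0) (a := t) (v := unitVec (Sum.inr ()))
    (by rw [(pt_line x t t).1]; exact h)
  simp only [(pt_line x t _).1] at h'
  exact h'

omit [Fintype ι] in
theorem pt_add (x : ι → ℝ) (t s : ℝ) (i : ι) :
    pt x t + s • unitVec (Sum.inl i) = pt (fun j => x j + s * unitVec (Sum.inl i) (Sum.inl j)) t := by
  funext j; cases j <;> simp [unitVec_ne]

/-- The partial derivatives of `f` in all coordinates exist on the cylinder. -/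
def DiffCyl (f : (ι ⊕ Unit → ℝ) → ℝ) (c : ι → ℝ) (r δ : ℝ) : Prop :=
  ∀ y ∈ cyl c r δ, ∀ j, LineDifferentiableAt ℝ f y (unitVec j)

theorem DiffCyl.mono {f : (ι ⊕ Unit → ℝ) → ℝ} {c c' : ι → ℝ} {r r' δ δ' : ℝ}
    (h : DiffCyl f c r δ) (hb : ball c' r' ⊆ ball c r) (hd : δ' ≤ δ) : DiffCyl f c' r' δ' :=
  fun y hy => h y (cyl_mono hb hd hy)

theorem DiffCyl.neg {f : (ι ⊕ Unit → ℝ) → ℝ} {c : ι → ℝ} {r δ : ℝ}
    (h : DiffCyl f c r δ) : DiffCyl (fun y => -f y) c r δ :=
  fun y hy j => (h y hy j).neg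

/-- A bounded function cannot have a vertical derivative of size more than `1 / t` near `0`. -/
theorem not_fast {f : (ι ⊕ Unit → ℝ) → ℝ} {c x : ι → ℝ} {r δ B : ℝ} (hd : DiffCyl f c r δ)
    (hδ : 0 < δ) (hx : x ∈ ball c r) (hB : ∀ y ∈ cyl c r δ, |f y| ≤ B)
    (hev : ∀ᶠ t in 𝓝[>] (0 : ℝ), t * lineDeriv ℝ f (pt x t) (unitVec (Sum.inr ())) < -1) :
    False := by
  obtain ⟨d, hd0, hd'⟩ := (nhdsGT_basis (0 : ℝ)).eventually_iff.1 hev
  set t₀ := min d δ / 2 with ht₀
  have ht₀pos : 0 < t₀ := by positivity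
  have hin : ∀ s, 0 ≤ s → t₀ * Real.exp (-s) ∈ Ioo 0 (min d δ) := fun s hs =>
    ⟨by positivity, lt_of_le_of_lt (mul_le_of_le_one_right ht₀pos.le
      (Real.exp_le_one_iff.2 (neg_nonpos.2 hs))) (half_lt_self (lt_min hd0 hδ))⟩
  set ψ : ℝ → ℝ := fun s => f (pt x (t₀ * Real.exp (-s))) with hψ
  have hder : ∀ s, 0 ≤ s → HasDerivAt ψ (lineDeriv ℝ f (pt x (t₀ * Real.exp (-s)))
      (unitVec (Sum.inr ())) * (t₀ * (Real.exp (-s) * -1))) s := by
    intro s hs
    exact (hasDerivAt_last (hd _ (pt_mem_cyl.2 ⟨hx, (hin s hs).1, (hin s hs).2.trans_le (min_le_right _ _)⟩)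
      _)).comp s (((hasDerivAt_id s).neg.exp).const_mul t₀)
  have hgrow : ∀ n : ℝ, 0 ≤ n → n ≤ ψ n - ψ 0 := by
    intro n hn
    have h := (convex_Icc (0 : ℝ) n).mul_sub_le_image_sub_of_le_deriv
      (f := ψ) (C := 1) (fun s hs => (hder s hs.1).continuousAt.continuousWithinAt)
      (fun s hs => (hder s (interior_subset hs).1).differentiableAt.differentiableWithinAt)
      (fun s hs => by
        have hs0 := (interior_subset hs).1
        rw [(hder s hs0).deriv]
        have := hd' ⟨(hin s hs0).1, (hin s hs0).2.trans_le (min_le_left _ _)⟩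
        linarith) 0 (left_mem_Icc.2 hn) n (right_mem_Icc.2 hn) hn
    simpa using h
  have hb : ∀ s, 0 ≤ s → |ψ s| ≤ B := fun s hs =>
    hB _ (pt_mem_cyl.2 ⟨hx, (hin s hs).1, (hin s hs).2.trans_le (min_le_right _ _)⟩)
  have hB0 : 0 ≤ B := (abs_nonneg _).trans (hb 0 le_rfl)
  have h1 := hgrow (2 * B + 1) (by linarith)
  have h2 := abs_le.1 (hb 0 le_rfl)
  have h3 := abs_le.1 (hb (2 * B + 1) (by linarith))
  linarith

/-- A bounded function cannot have a base derivative tending to infinity above a whole ball. -/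
theorem not_steep {f : (ι ⊕ Unit → ℝ) → ℝ} {c : ι → ℝ} {r δ B : ℝ} (i : ι) (hr : 0 < r)
    (hδ : 0 < δ) (hd : DiffCyl f c r δ) (hB : ∀ y ∈ cyl c r δ, |f y| ≤ B)
    (hpos : ∀ y ∈ cyl c r δ, 0 < lineDeriv ℝ f y (unitVec (Sum.inl i)))
    (hinf : ∀ x ∈ ball c r, ∀ M : ℝ,
      ∀ᶠ t in 𝓝[>] (0 : ℝ), M < lineDeriv ℝ f (pt x t) (unitVec (Sum.inl i))) : False := by
  classical
  set τ : ℕ → ℝ := fun n => δ / ((n : ℝ) + 2) with hτ
  have hτmem : ∀ n, τ n ∈ Ioo 0 δ := fun n => by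
    refine ⟨by positivity, div_lt_self hδ ?_⟩
    have := (Nat.cast_nonneg n : (0 : ℝ) ≤ n)
    linarith
  set u : ι → ℝ := fun j => unitVec (Sum.inl i) (Sum.inl j) with hu
  have hline : ∀ s ∈ Icc (-(r / 2)) (r / 2), (fun j => c j + s * u j) ∈ ball c r := by
    intro s hs
    rw [mem_ball, dist_pi_lt_iff hr]
    intro j
    rw [Real.dist_eq, add_sub_cancel_left]
    rcases eq_or_ne j i with rfl | hj
    · simp only [hu, unitVec_self, mul_one]
      exact lt_of_le_of_lt (abs_le.2 hs) (half_lt_self hr)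
    · simp [hu, unitVec_ne (show (Sum.inl j : ι ⊕ Unit) ≠ Sum.inl i by simpa using hj), hr]
  set φ : ℕ → ℝ → ℝ := fun n s => f (pt (fun j => c j + s * u j) (τ n)) with hφ
  have hφ' : ∀ n, ∀ s ∈ Icc (-(r / 2)) (r / 2), HasDerivAt (φ n)
      (lineDeriv ℝ f (pt (fun j => c j + s * u j) (τ n)) (unitVec (Sum.inl i))) s := by
    intro n s hs
    have h := hasDerivAt_line (f := f) (y := pt c (τ n)) (a := s) (v := unitVec (Sum.inl i))
      (by rw [pt_add]; exact hd _ (pt_mem_cyl.2 ⟨hline s hs, hτmem n⟩) _)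
    simp only [pt_add] at h
    exact h
  have hint : ∀ n, ∫⁻ s in Ioc (-(r / 2)) (r / 2), ENNReal.ofReal (deriv (φ n) s) ≤
      ENNReal.ofReal (2 * B) := by
    intro n
    have hder : ∀ s ∈ Ioo (-(r / 2)) (r / 2), HasDerivAt (φ n) (deriv (φ n) s) s :=
      fun s hs => (hφ' n s (Ioo_subset_Icc_self hs)).differentiableAt.hasDerivAt
    have hnn : ∀ s ∈ Icc (-(r / 2)) (r / 2), 0 ≤ deriv (φ n) s := fun s hs => by
      rw [(hφ' n s hs).deriv]; exact (hpos _ (pt_mem_cyl.2 ⟨hline s hs, hτmem n⟩)).le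
    have hcont : ContinuousOn (φ n) (Icc (-(r / 2)) (r / 2)) :=
      fun s hs => (hφ' n s hs).continuousAt.continuousWithinAt
    have hI := intervalIntegral.integrableOn_deriv_of_nonneg hcont hder
      fun s hs => hnn s (Ioo_subset_Icc_self hs)
    rw [← ofReal_integral_eq_lintegral_ofReal hI ((ae_restrict_iff' measurableSet_Ioc).2
      (Eventually.of_forall fun s hs => hnn s (Ioc_subset_Icc_self hs))),
      ← intervalIntegral.integral_of_le (by linarith),
      intervalIntegral.integral_eq_sub_of_hasDerivAt_of_le (by linarith) hcont hder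
        ((intervalIntegrable_iff_integrableOn_Ioc_of_le (by linarith)).2 hI)]
    refine ENNReal.ofReal_le_ofReal ?_
    have h1 := abs_le.1 (hB _ (show pt (fun j => c j + r / 2 * u j) (τ n) ∈ cyl c r δ from
      ⟨hline _ (right_mem_Icc.2 (by linarith)), hτmem n⟩))
    have h2 := abs_le.1 (hB _ (show pt (fun j => c j + -(r / 2) * u j) (τ n) ∈ cyl c r δ from
      ⟨hline _ (left_mem_Icc.2 (by linarith)), hτmem n⟩))
    simp only [hφ]
    linarith
  have hlim : ∀ s ∈ Icc (-(r / 2)) (r / 2),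
      Tendsto (fun n => ENNReal.ofReal (deriv (φ n) s)) atTop (𝓝 ⊤) := by
    intro s hs
    refine ENNReal.tendsto_ofReal_atTop.comp (tendsto_atTop.2 fun M => ?_)
    have hτ0 : Tendsto τ atTop (𝓝[>] (0 : ℝ)) := by
      refine tendsto_nhdsWithin_iff.2 ⟨?_, Eventually.of_forall fun n => (hτmem n).1⟩
      exact Tendsto.div_atTop tendsto_const_nhds
        (tendsto_atTop_add_const_right _ _ tendsto_natCast_atTop_atTop)
    filter_upwards [hτ0.eventually (hinf _ (hline s hs) M)] with n hn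
    rw [(hφ' n s hs).deriv]
    exact hn.le
  have hfatou := lintegral_liminf_le (u := atTop) (μ := volume.restrict (Ioc (-(r / 2)) (r / 2)))
    (f := fun n s => ENNReal.ofReal (deriv (φ n) s))
    fun n => (measurable_deriv (φ n)).ennreal_ofReal
  rw [setLIntegral_congr_fun measurableSet_Ioc
    (fun s hs => ((hlim s (Ioc_subset_Icc_self hs)).liminf_eq))] at hfatou
  have hle : liminf (fun n => ∫⁻ s in Ioc (-(r / 2)) (r / 2), ENNReal.ofReal (deriv (φ n) s))
      atTop ≤ ENNReal.ofReal (2 * B) :=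
    liminf_le_of_frequently_le' (Eventually.of_forall hint).frequently
  have := hfatou.trans hle
  rw [setLIntegral_const, Real.volume_Ioc, ENNReal.top_mul (by simpa using hr)] at this
  exact ENNReal.ofReal_ne_top (top_le_iff.1 this)

variable (hp : SAProjStmt)
include hp

omit hp in
theorem SAFun.const {A : Set (ι → ℝ)} (hA : SA A) (a : ℝ) : SAFun A fun _ => a :=
  (SAFun.poly hA (MvPolynomial.C a)).congr fun _ _ => by simp

theorem SAFun.gt_const {A : Set (ι → ℝ)} {f : (ι → ℝ) → ℝ} (hf : SAFun A f) (a : ℝ) :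
    SA {y | y ∈ A ∧ a < f y} :=
  (SAFun.const (SAMap.dom hp hf) a).lt hp hf

theorem SAFun.neg {A : Set (ι → ℝ)} {f : (ι → ℝ) → ℝ} (hf : SAFun A f) :
    SAFun A fun y => -f y :=
  ((SAFun.const (SAMap.dom hp hf) 0).sub hp hf).congr fun _ _ => zero_sub _

/-- The derivative is semialgebraic on the cylinder. -/
theorem SAFun.deriv_cyl {f : (ι ⊕ Unit → ℝ) → ℝ} {c : ι → ℝ} {r δ : ℝ} (hr : 0 < r)
    (hd : DiffCyl f c r δ) (hf : SAFun (cyl c r δ) f) (j : ι ⊕ Unit) :
    SAFun (cyl c r δ) fun y => lineDeriv ℝ f y (unitVec j) :=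
  SAMap.mono (hf.lineDeriv' hp (isOpen_cyl c r δ) (unitVec j)).2 (SA.cyl c hr δ)
    fun y hy => ⟨hy, hd y hy j⟩

/-- The product with the last coordinate is bounded by one. -/
theorem last_bound {f : (ι ⊕ Unit → ℝ) → ℝ} {c : ι → ℝ} {r δ B : ℝ} (hr : 0 < r) (hδ : 0 < δ)
    (hd : DiffCyl f c r δ) (hf : SAFun (cyl c r δ) f) (hB : ∀ y ∈ cyl c r δ, |f y| ≤ B) :
    ∃ (c' : ι → ℝ) (r' δ' : ℝ), 0 < r' ∧ 0 < δ' ∧ δ' ≤ δ ∧ ball c' r' ⊆ ball c r ∧
      ∀ y ∈ cyl c' r' δ',
        |y (Sum.inr ()) * lineDeriv ℝ f y (unitVec (Sum.inr ()))| ≤ 1 := by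
  set g : (ι ⊕ Unit → ℝ) → ℝ :=
    fun y => y (Sum.inr ()) * lineDeriv ℝ f y (unitVec (Sum.inr ())) with hg
  have hgs : SAFun (cyl c r δ) g :=
    ((SAFun.poly (SA.cyl c hr δ) (X (Sum.inr ()))).mul hp
      (SAFun.deriv_cyl hp hr hd hf (Sum.inr ()))).congr fun y _ => by simp [hg]
  have hPsa := SAFun.gt_const hp hgs 1
  have hNsa := SAFun.gt_const hp (SAFun.neg hp hgs) 1
  set S := cyl c r δ \ ({y | y ∈ cyl c r δ ∧ 1 < g y} ∪ {y | y ∈ cyl c r δ ∧ 1 < -g y}) with hS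
  have hSsa : SA S := (SA.cyl c hr δ).diff (hPsa.union hNsa)
  have hev : ball c r ⊆ ev S := by
    intro x hx
    have hnot : x ∉ ev {y | y ∈ cyl c r δ ∧ 1 < g y} := fun h =>
      not_fast (hd.neg) hδ hx (fun y hy => by rw [abs_neg]; exact hB y hy) (Filter.mem_of_superset h fun t ht => by
        have h2 : 1 < t * lineDeriv ℝ f (pt x t) (unitVec (Sum.inr ())) := ht.2
        show t * lineDeriv ℝ (fun y => -f y) (pt x t) (unitVec (Sum.inr ())) < -1
        rw [show lineDeriv ℝ (fun y => -f y) (pt x t) (unitVec (Sum.inr ())) =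
          -lineDeriv ℝ f (pt x t) (unitVec (Sum.inr ())) from deriv.fun_neg]
        linarith)
    have hnot' : x ∉ ev {y | y ∈ cyl c r δ ∧ 1 < -g y} := fun h =>
      not_fast hd hδ hx hB (Filter.mem_of_superset h fun t ht => by
        have h2 : 1 < -(t * lineDeriv ℝ f (pt x t) (unitVec (Sum.inr ()))) := ht.2
        show t * lineDeriv ℝ f (pt x t) (unitVec (Sum.inr ())) < -1
        linarith)
    filter_upwards [(ev_or hPsa x).resolve_left hnot, (ev_or hNsa x).resolve_left hnot',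
      Ioo_mem_nhdsGT hδ] with t h1 h2 h3
    exact ⟨⟨hx, h3⟩, fun h => h.elim h1 h2⟩
  obtain ⟨c', r', δ', hr', hδ', hsub, hcyl⟩ := uniform hp hSsa hr hev
  refine ⟨c', r', min δ' δ, hr', lt_min hδ' hδ, min_le_right _ _, hsub, fun y hy => ?_⟩
  have hy' := hcyl (cyl_mono Subset.rfl (min_le_left _ _) hy)
  simp only [hS, Set.mem_sdiff, mem_union, mem_ofPred_eq, not_or, not_and, not_lt] at hy'
  exact abs_le.2 ⟨by linarith [hy'.2.2 hy'.1], hy'.2.1 hy'.1⟩

/-- A base derivative is bounded on a smaller cylinder. -/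
theorem base_bound {f : (ι ⊕ Unit → ℝ) → ℝ} {c : ι → ℝ} {r δ B : ℝ} (i : ι) (hr : 0 < r)
    (hδ : 0 < δ) (hd : DiffCyl f c r δ) (hf : SAFun (cyl c r δ) f)
    (hB : ∀ y ∈ cyl c r δ, |f y| ≤ B) :
    ∃ (c' : ι → ℝ) (r' δ' M : ℝ), 0 < r' ∧ 0 < δ' ∧ δ' ≤ δ ∧ ball c' r' ⊆ ball c r ∧
      ∀ y ∈ cyl c' r' δ', |lineDeriv ℝ f y (unitVec (Sum.inl i))| ≤ M := by
  set g : (ι ⊕ Unit → ℝ) → ℝ := fun y => lineDeriv ℝ f y (unitVec (Sum.inl i)) with hg
  have hgs : SAFun (cyl c r δ) g := SAFun.deriv_cyl hp hr hd hf _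
  set Good : ℕ → Set (ι ⊕ Unit → ℝ) := fun n => cyl c r δ \
    ({y | y ∈ cyl c r δ ∧ (n : ℝ) < g y} ∪ {y | y ∈ cyl c r δ ∧ (n : ℝ) < -g y}) with hGood
  -- the set of points above which a function tends to `+∞`
  set up : ((ι ⊕ Unit → ℝ) → ℝ) → Set (ι → ℝ) :=
    fun g => {x | ∀ M : ℝ, x ∈ ev {y | y ∈ cyl c r δ ∧ M < g y}} with hup
  have hupSA : ∀ {g : (ι ⊕ Unit → ℝ) → ℝ}, SAFun (cyl c r δ) g → SA (up g) := by
    intro g hgs
    let q : ι ⊕ Unit → MvPolynomial ((ι ⊕ Unit) ⊕ Unit) ℝ := fun j => X ((Sum.map Sum.inl id) j)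
    have hB' := (SA.cyl c hr δ).preimage q
    have h1 := hgs.compPoly hB' q fun y hy => hy
    have h2 := (SAFun.poly hB' (X (Sum.inl (Sum.inr ())))).lt hp h1
    refine ((SA.ev hp h2).forall_real hp).of_eq ?_
    ext x
    refine forall_congr' fun M => ?_
    simp only [ev, mem_ofPred_eq]
    refine eventually_congr (Eventually.of_forall fun t => ?_)
    have e : (fun j => eval (pt (Sum.elim x fun _ => M) t) (q j)) = pt x t := by
      funext j; rcases j with j | j <;> simp [q, pt]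
    simp [e]
  have hupsub : ∀ {g : (ι ⊕ Unit → ℝ) → ℝ}, SAFun (cyl c r δ) g → ∀ {x : ι → ℝ},
      x ∈ ev {y | y ∈ cyl c r δ ∧ 0 < g y} →
      (∀ n : ℕ, x ∈ ev ({y | y ∈ cyl c r δ ∧ (n : ℝ) < g y} ∪
        {y | y ∈ cyl c r δ ∧ (n : ℝ) < -g y})) → x ∈ up g := by
    intro g _ x hpos hbig M
    obtain ⟨n, hn⟩ := exists_nat_ge (max M 0)
    change ∀ᶠ t in 𝓝[>] (0 : ℝ), pt x t ∈ _
    filter_upwards [hpos, hbig n] with t h1 h2
    rcases h2 with h2 | h2
    · exact ⟨h2.1, lt_of_le_of_lt ((le_max_left M 0).trans hn) h2.2⟩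
    · have h3 := h1.2
      have h4 := h2.2
      linarith [(Nat.cast_nonneg n : (0 : ℝ) ≤ n)]
  have hGsa : ∀ n, SA (Good n) := fun n => (SA.cyl c hr δ).diff
    ((SAFun.gt_const hp hgs _).union (SAFun.gt_const hp (SAFun.neg hp hgs) _))
  obtain ⟨n, c', r', hr', hsub, hn⟩ := baireSA hr
    (A := fun n : ℕ => if n = 0 then up g else if n = 1 then up (fun y => -g y) else
      ev (Good (n - 2)))
    (fun n => by
      split_ifs
      · exact hupSA hgs
      · exact hupSA (SAFun.neg hp hgs)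
      · exact SA.ev hp (hGsa _))
    (fun x hx => by
      by_cases hgood : ∃ n, x ∈ ev (Good n)
      · obtain ⟨n, hn⟩ := hgood
        exact mem_iUnion.2 ⟨n + 2, by simpa using hn⟩
      push Not at hgood
      have hcyl : ∀ᶠ t in 𝓝[>] (0 : ℝ), pt x t ∈ cyl c r δ :=
        Filter.mem_of_superset (Ioo_mem_nhdsGT hδ) fun t ht => pt_mem_cyl.2 ⟨hx, ht⟩
      have hbig : ∀ n : ℕ, x ∈ ev ({y | y ∈ cyl c r δ ∧ (n : ℝ) < g y} ∪
          {y | y ∈ cyl c r δ ∧ (n : ℝ) < -g y}) := fun n => by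
        filter_upwards [(ev_or (hGsa n) x).resolve_left (hgood n), hcyl] with t h1 h2
        by_contra h3
        exact h1 ⟨h2, h3⟩
      rcases ev_or (SAFun.gt_const hp hgs 0) x with h | h
      · exact mem_iUnion.2 ⟨0, by simpa using hupsub hgs h hbig⟩
      · refine mem_iUnion.2 ⟨1, ?_⟩
        rw [if_neg one_ne_zero, if_pos rfl]
        refine hupsub (SAFun.neg hp hgs) ?_ fun n => ?_
        · change ∀ᶠ t in 𝓝[>] (0 : ℝ), pt x t ∈ _
          filter_upwards [h, hbig 0] with t h1 h2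
          rcases h2 with h2 | h2
          · exact absurd (by simpa using h2) h1
          · simpa using h2
        · simpa [union_comm] using hbig n)
  -- exclude blow up
  have hno : ∀ {f' : (ι ⊕ Unit → ℝ) → ℝ}, DiffCyl f' c r δ → SAFun (cyl c r δ) f' →
      (∀ y ∈ cyl c r δ, |f' y| ≤ B) →
      ball c' r' ⊆ up (fun y => lineDeriv ℝ f' y (unitVec (Sum.inl i))) → False := by
    intro f' hd' hf' hB' hb
    obtain ⟨c'', r'', δ'', hr'', hδ'', hsub', hcyl'⟩ := uniform hp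
      (SAFun.gt_const hp (SAFun.deriv_cyl hp hr hd' hf' (Sum.inl i)) 0) hr'
      (fun x hx => hb hx 0)
    have hsub'' := hsub'.trans hsub
    exact not_steep (B := B) i hr'' (lt_min hδ'' hδ) (hd'.mono hsub'' (min_le_right δ'' δ))
      (fun y hy => hB' y (cyl_mono hsub'' (min_le_right _ _) hy))
      (fun y hy => (hcyl' (cyl_mono Subset.rfl (min_le_left _ _) hy)).2)
      (fun x hx M => Filter.mem_of_superset (hb (hsub' hx) M) fun t ht => ht.2)
  split_ifs at hn with h0 h1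
  · exact (hno hd hf hB hn).elim
  · refine (hno hd.neg (SAFun.neg hp hf) (fun y hy => by rw [abs_neg]; exact hB y hy) ?_).elim
    intro x hx M
    change ∀ᶠ t in 𝓝[>] (0 : ℝ), pt x t ∈ _
    filter_upwards [hn hx M] with t ht
    refine ⟨ht.1, ?_⟩
    rw [show lineDeriv ℝ (fun y => -f y) (pt x t) (unitVec (Sum.inl i)) = -g (pt x t) from
      deriv.fun_neg]
    exact ht.2
  · obtain ⟨c'', r'', δ'', hr'', hδ'', hsub', hcyl'⟩ := uniform hp (hGsa _) hr' hn
    refine ⟨c'', r'', min δ'' δ, ((n - 2 : ℕ) : ℝ), hr'', lt_min hδ'' hδ, min_le_right _ _,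
      hsub'.trans hsub, fun y hy => ?_⟩
    have hy' := hcyl' (cyl_mono Subset.rfl (min_le_left _ _) hy)
    simp only [hGood, Set.mem_sdiff, mem_union, mem_ofPred_eq, not_or, not_and, not_lt] at hy'
    exact abs_le.2 ⟨by linarith [hy'.2.2 hy'.1], hy'.2.1 hy'.1⟩

end

end Vale.Agent.P274.Full.HornWin
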