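import Vale.Agent.P274.Full.Tool.Map
import Mathlib.Topology.MetricSpace.HausdorffDistance
import Mathlib.Analysis.Normed.Group.Basic

/-!
A semialgebraic selection from a family of bounded open sets: the lexicographically smallest
centre of a largest box in the fibre.
-/

open MvPolynomial Set Filter Topology Metric

namespace Vale.Agent.P274.Full.HornWin

noncomputable section

variable {ι : Type} [Fintype ι] {k : ℕ}

/-- The fibre over a point. -/
def fib (S : Set (ι ⊕ Fin k → ℝ)) (y : ι → ℝ) : Set (Fin k → ℝ) := {v | Sum.elim y v ∈ S}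

/-- Lexicographic order. -/
def LexLE (v w : Fin k → ℝ) : Prop := v = w ∨ ∃ i, (∀ j < i, v j = w j) ∧ v i < w i

theorem LexLE.antisymm {v w : Fin k → ℝ} (h : LexLE v w) (h' : LexLE w v) : v = w := by
  rcases h with rfl | ⟨i, hi, hlt⟩
  · rfl
  rcases h' with rfl | ⟨j, hj, hlt'⟩
  · rfl
  rcases lt_trichotomy i j with hij | rfl | hij
  · exact absurd (hj i hij).symm hlt.ne
  · exact absurd hlt hlt'.not_gt
  · exact absurd (hi j hij).symm hlt'.ne

theorem exists_lexLE {K : Set (Fin k → ℝ)} (hK : IsCompact K) (hne : K.Nonempty) :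
    ∃ v ∈ K, ∀ w ∈ K, LexLE v w := by
  suffices h : ∀ j : ℕ, ∃ v ∈ K, ∀ w ∈ K, (∀ l : Fin k, (l : ℕ) < j → v l = w l) ∨
      ∃ i : Fin k, (i : ℕ) < j ∧ (∀ l < i, v l = w l) ∧ v i < w i by
    obtain ⟨v, hv, hw⟩ := h k
    refine ⟨v, hv, fun w hwK => ?_⟩
    rcases hw w hwK with h | ⟨i, -, hi⟩
    · exact Or.inl (funext fun l => h l l.2)
    · exact Or.inr ⟨i, hi⟩
  intro j
  induction j with
  | zero => exact ⟨_, hne.some_mem, fun w _ => Or.inl fun l hl => absurd hl (Nat.not_lt_zero _)⟩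
  | succ j ih =>
    obtain ⟨v, hv, hmin⟩ := ih
    by_cases hj : j < k
    swap
    · refine ⟨v, hv, fun w hw => (hmin w hw).imp (fun h l _ => h l ?_) fun ⟨i, h1, h2⟩ =>
        ⟨i, h1.trans (Nat.lt_succ_self j), h2⟩⟩
      exact l.2.trans_le (not_lt.1 hj)
    have hK' : IsCompact (K ∩ {w | ∀ l : Fin k, (l : ℕ) < j → w l = v l}) := by
      refine hK.inter_right ?_
      simp only [Set.ofPred_forall]
      exact isClosed_iInter fun l => isClosed_iInter fun _ =>
        isClosed_eq (continuous_apply l) continuous_const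
    obtain ⟨u, ⟨hu, hu'⟩, humin⟩ := hK'.exists_isMinOn ⟨v, hv, fun _ _ => rfl⟩
      (continuous_apply (⟨j, hj⟩ : Fin k)).continuousOn
    refine ⟨u, hu, fun w hw => ?_⟩
    rcases hmin w hw with heq | ⟨i, hij, hpre, hlt⟩
    · have hle : u ⟨j, hj⟩ ≤ w ⟨j, hj⟩ := humin ⟨hw, fun l hl => (heq l hl).symm⟩
      rcases hle.eq_or_lt with he | hlt
      · refine Or.inl fun l hl => ?_
        rcases (Nat.lt_succ_iff.1 hl).lt_or_eq with hl | hl
        · rw [hu' l hl, heq l hl]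
        · rw [show l = ⟨j, hj⟩ from Fin.ext hl, he]
      · refine Or.inr ⟨⟨j, hj⟩, Nat.lt_succ_self j, fun l hl => ?_, hlt⟩
        rw [hu' l hl, heq l hl]
    · refine Or.inr ⟨i, hij.trans (Nat.lt_succ_self j), fun l hl => ?_, ?_⟩
      · rw [hu' l (lt_trans (Fin.lt_def.1 hl) hij), hpre l hl]
      · rwa [hu' i hij]

/-- The box of radius `r` around `v` lies in the fibre. -/
def Inside (S : Set (ι ⊕ Fin k → ℝ)) (y : ι → ℝ) (v : Fin k → ℝ) (r : ℝ) : Prop :=
  ∀ u : Fin k → ℝ, (∀ i, (u i - v i) ^ 2 < r ^ 2) → u ∈ fib S y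

/-- A centre of a largest box. -/
def Best (S : Set (ι ⊕ Fin k → ℝ)) (y : ι → ℝ) (v : Fin k → ℝ) : Prop :=
  v ∈ fib S y ∧ ∀ (w : Fin k → ℝ) (r : ℝ), 0 < r → Inside S y w r → Inside S y v r

omit [Fintype ι] in
theorem inside_iff {S : Set (ι ⊕ Fin k → ℝ)} {y : ι → ℝ} {v : Fin k → ℝ} {r : ℝ} (hr : 0 < r) :
    Inside S y v r ↔ ball v r ⊆ fib S y := by
  refine forall_congr' fun u => imp_congr ?_ Iff.rfl
  rw [mem_ball, dist_pi_lt_iff hr]
  exact forall_congr' fun i => by rw [sq_lt_sq, abs_of_pos hr, Real.dist_eq]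

omit [Fintype ι] in
theorem exists_least_best {S : Set (ι ⊕ Fin k → ℝ)} {y : ι → ℝ} (hk : 0 < k)
    (ho : IsOpen (fib S y)) (hb : Bornology.IsBounded (fib S y)) (hne : (fib S y).Nonempty) :
    ∃ v, Best S y v ∧ ∀ w, Best S y w → LexLE v w := by
  have : Nonempty (Fin k) := ⟨⟨0, hk⟩⟩
  set A := fib S y with hA
  have hc : Aᶜ.Nonempty := by
    by_contra hc
    rw [not_nonempty_iff_eq_empty, compl_empty_iff] at hc
    exact NormedSpace.unbounded_univ ℝ (Fin k → ℝ) (hc ▸ hb)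
  set ρ := fun v => infDist v Aᶜ with hρ
  have hρc : Continuous ρ := continuous_infDist_pt _
  have hins : ∀ v r, 0 < r → (Inside S y v r ↔ r ≤ ρ v) := by
    intro v r hr
    rw [inside_iff hr]
    refine ⟨fun h => le_infDist hc |>.2 fun u hu => ?_, fun h u hu => ?_⟩
    · by_contra hlt
      exact hu (h (by rw [mem_ball, dist_comm]; exact not_le.1 hlt))
    · by_contra hu'
      have h1 : ρ v ≤ dist v u := infDist_le_dist_of_mem hu'
      rw [mem_ball, dist_comm] at hu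
      linarith
  have hpos : ∀ v, 0 < ρ v ↔ v ∈ A := by
    intro v
    rw [← infDist_pos_iff_notMem_closure hc, (isClosed_compl_iff.2 ho).closure_eq,
      notMem_compl_iff]
  obtain ⟨v₀, hv₀, hmax⟩ := hb.isCompact_closure.exists_isMaxOn (hne.mono subset_closure)
    hρc.continuousOn
  have hv₀pos : 0 < ρ v₀ :=
    ((hpos _).2 hne.some_mem).trans_le (hmax (subset_closure hne.some_mem))
  have hbest : ∀ v, Best S y v ↔ v ∈ closure A ∧ ρ v₀ ≤ ρ v := by
    refine fun v => ⟨fun ⟨hv, h⟩ => ⟨subset_closure hv,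
      (hins _ _ hv₀pos).1 (h _ _ hv₀pos ((hins _ _ hv₀pos).2 le_rfl))⟩, fun ⟨_, h⟩ => ?_⟩
    refine ⟨(hpos v).1 (hv₀pos.trans_le h), fun w r hr hw => (hins _ _ hr).2 ?_⟩
    have hwA : w ∈ A := (hpos w).1 (hr.trans_le ((hins _ _ hr).1 hw))
    exact ((hins _ _ hr).1 hw).trans ((hmax (subset_closure hwA)).trans h)
  obtain ⟨v, hv, hle⟩ := exists_lexLE
    (hb.isCompact_closure.inter_right (isClosed_le continuous_const hρc))
    ⟨v₀, hv₀, show ρ v₀ ≤ ρ v₀ from le_rfl⟩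
  exact ⟨v, (hbest v).2 hv, fun w hw => hle w ((hbest w).1 hw)⟩

variable (hp : SAProjStmt)
include hp

theorem SA.inside {S : Set (ι ⊕ Fin k → ℝ)} (hS : SA S) :
    SA {z : (ι ⊕ Fin k) ⊕ Unit → ℝ | Inside S (fun i => z (Sum.inl (Sum.inl i)))
      (fun i => z (Sum.inl (Sum.inr i))) (z (Sum.inr ()))} := by
  let e : ι ⊕ Fin k → ((ι ⊕ Fin k) ⊕ Unit) ⊕ Fin k :=
    Sum.elim (fun i => Sum.inl (Sum.inl (Sum.inl i))) Sum.inr
  refine (((SA.all fun i => SA.lt ((X (Sum.inr i) - X (Sum.inl (Sum.inl (Sum.inr i)))) ^ 2)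
    ((X (Sum.inl (Sum.inr ()))) ^ 2)).imp (hS.reindex e)).forall' hp).of_eq ?_
  ext z
  simp only [mem_ofPred_eq, Inside, fib, map_pow, map_sub, eval_X, Sum.elim_inl, Sum.elim_inr]
  refine forall_congr' fun u => imp_congr_right fun _ => iff_of_eq (congrArg (· ∈ S) ?_)
  funext i; rcases i with i | i <;> rfl

theorem SA.best {S : Set (ι ⊕ Fin k → ℝ)} (hS : SA S) :
    SA {z : ι ⊕ Fin k → ℝ | Best S (fun i => z (Sum.inl i)) fun i => z (Sum.inr i)} := by
  have hI := SA.inside hp hS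
  let f : (ι ⊕ Fin k) ⊕ Unit → ((ι ⊕ Fin k) ⊕ Fin k) ⊕ Unit :=
    Sum.map (Sum.elim (fun i => Sum.inl (Sum.inl i)) Sum.inr) id
  let g : (ι ⊕ Fin k) ⊕ Unit → ((ι ⊕ Fin k) ⊕ Fin k) ⊕ Unit := Sum.map Sum.inl id
  refine (hS.inter ((((SA.coord_pos (Sum.inr ())).imp
    ((hI.reindex f).imp (hI.reindex g))).forall_real hp).forall' hp)).of_eq ?_
  ext z
  simp only [mem_inter_iff, mem_ofPred_eq, Best, fib, Sum.elim_inr, Function.comp_def, f, g,
    Sum.map_inl, Sum.map_inr, Sum.elim_inl, id_eq]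
  rw [show (Sum.elim (fun i => z (Sum.inl i)) fun i => z (Sum.inr i)) = z by
    funext i; rcases i with i | i <;> rfl]

/-- Selection from bounded open fibres. -/
theorem select {S : Set (ι ⊕ Fin k → ℝ)} (hS : SA S) (hk : 0 < k)
    (ho : ∀ y, IsOpen (fib S y)) (hb : ∀ y, Bornology.IsBounded (fib S y)) :
    ∃ s : (ι → ℝ) → Fin k → ℝ, SAMap {y | ∃ v, Sum.elim y v ∈ S} s ∧
      ∀ y, (fib S y).Nonempty → s y ∈ fib S y := by
  classical
  set L : (ι → ℝ) → (Fin k → ℝ) → Prop :=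
    fun y v => Best S y v ∧ ∀ w, Best S y w → LexLE v w with hL
  set s : (ι → ℝ) → Fin k → ℝ := fun y => if h : ∃ v, L y v then h.choose else 0 with hs
  have hsL : ∀ y, (fib S y).Nonempty → L y (s y) := by
    intro y hy
    have h := exists_least_best hk (ho y) (hb y) hy
    simp only [hs, dif_pos (show ∃ v, L y v from h)]
    exact h.choose_spec
  refine ⟨s, ?_, fun y hy => (hsL y hy).1.1⟩
  have hB := SA.best hp hS
  let b : ι ⊕ Fin k → (ι ⊕ Fin k) ⊕ Fin k :=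
    Sum.elim (fun i => Sum.inl (Sum.inl i)) Sum.inr
  have hlex : SA {z : (ι ⊕ Fin k) ⊕ Fin k → ℝ |
      LexLE (fun i => z (Sum.inl (Sum.inr i))) fun i => z (Sum.inr i)} := by
    refine ((SA.all fun i => SA.eq (X (Sum.inl (Sum.inr i))) (X (Sum.inr i))).union
      (SA.iUnion fun i : Fin k => (SA.all fun j : {j : Fin k // j < i} =>
        SA.eq (X (Sum.inl (Sum.inr j.1))) (X (Sum.inr j.1))).inter
          (SA.lt (X (Sum.inl (Sum.inr i))) (X (Sum.inr i))))).of_eq ?_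
    ext z
    simp [LexLE, funext_iff, Subtype.forall]
  refine (hB.inter (((hB.reindex b).imp hlex).forall' hp)).of_eq ?_
  ext z
  simp only [mem_inter_iff, mem_ofPred_eq, Function.comp_def, b, Sum.elim_inl, Sum.elim_inr]
  constructor
  · rintro ⟨h1, h2⟩
    have hne : (fib S fun i => z (Sum.inl i)).Nonempty := ⟨_, h1.1⟩
    refine ⟨hne, ?_⟩
    have h3 := hsL _ hne
    exact LexLE.antisymm (h2 _ h3.1) (h3.2 _ h1)
  · rintro ⟨hne, he⟩
    have h3 := hsL _ hne
    rw [← he] at h3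
    exact h3

end

end Vale.Agent.P274.Full.HornWin
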