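import Vale.Agent.P274.Full.Horn.Base
import Vale.Agent.P274.Full.Horn.Select
import Mathlib.Analysis.Complex.Basic

/-!
The fibres of `U` above a generic edge, in a shell at unit scale.
-/

open MvPolynomial Set Filter Topology Metric

namespace Vale.Agent.P274.Full.HornWin

noncomputable section

/-- Real coordinates of the base. -/
abbrev Bix (m k : ℕ) : Type := (Fin m ⊕ Fin m) ⊕ Fin k

variable {N m k : ℕ} {D : CDom N}

/-- The base point with given coordinates. -/
def toBase (y : Bix m k → ℝ) : Cn m × Rn k :=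
  (WithLp.toLp 2 fun i => (⟨y (Sum.inl (Sum.inl i)), y (Sum.inl (Sum.inr i))⟩ : ℂ),
    WithLp.toLp 2 fun i => y (Sum.inr i))

theorem rcBase_toBase (y : Bix m k → ℝ) : rcBase (toBase y) = y := by
  funext i
  rcases i with (i | i) | i <;> rfl

theorem toBase_rcBase (x : Cn m × Rn k) : toBase (rcBase x) = x := by
  refine Prod.ext ?_ ?_ <;> · ext i; rfl

theorem continuous_toBase : Continuous (toBase : (Bix m k → ℝ) → Cn m × Rn k) := by
  refine Continuous.prodMk ((PiLp.continuous_toLp 2 _).comp (continuous_pi fun i => ?_))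
    ((PiLp.continuous_toLp 2 _).comp (continuous_pi fun i => continuous_apply _))
  have e : (fun y : Bix m k → ℝ => (⟨y (Sum.inl (Sum.inl i)), y (Sum.inl (Sum.inr i))⟩ : ℂ)) =
      fun y => (y (Sum.inl (Sum.inl i)) : ℂ) + y (Sum.inl (Sum.inr i)) * Complex.I := by
    funext y; exact Complex.mk_eq_add_mul_I _ _
  rw [e]
  fun_prop

theorem continuous_rcBase : Continuous (rcBase : Cn m × Rn k → Bix m k → ℝ) := by
  refine continuous_pi fun i => ?_
  rcases i with (i | i) | i
  · exact Complex.continuous_re.comp ((PiLp.continuous_apply 2 _ i).comp continuous_fst)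
  · exact Complex.continuous_im.comp ((PiLp.continuous_apply 2 _ i).comp continuous_fst)
  · exact (PiLp.continuous_apply 2 _ i).comp continuous_snd

theorem continuous_mkC : Continuous fun p : Rn k × Rn k => mkC p.1 p.2 := by
  refine (PiLp.continuous_toLp 2 _).comp (continuous_pi fun i => ?_)
  simp only [Complex.mk_eq_add_mul_I]
  fun_prop

theorem rcMod_injective : Function.Injective (rcMod : Mod m k → _) := by
  intro p q h
  refine Prod.ext ?_ ?_ <;> ext i <;> apply Complex.ext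
  · exact congrFun h (Sum.inl (Sum.inl i))
  · exact congrFun h (Sum.inl (Sum.inr i))
  · exact congrFun h (Sum.inr (Sum.inl i))
  · exact congrFun h (Sum.inr (Sum.inr i))

theorem isOpen_Uc (φ : Chart D m k) : IsOpen φ.Uc := by
  have e : φ.Uc = φ.W ∩ φ.ψ ⁻¹' D.O := by
    ext x
    simp only [Chart.Uc, mem_ofPred_eq, mem_inter_iff, mem_preimage, D.U_eq]
    exact ⟨fun h => ⟨h.1, h.2.2⟩, fun h => ⟨h.1, (φ.maps_ψ x h.1).1, h.2⟩⟩
  rw [e]
  exact φ.diff_ψ.continuousOn.isOpen_inter_preimage φ.isOpen_W D.isOpen_O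

variable (P : Patch D m k)

/-- Points `(x, t, v)` with `v` in the unit shell and `t • v` in the fibre over `x`. -/
def Fib : Set ((Bix m k ⊕ Unit) ⊕ Fin k → ℝ) :=
  {z | (∀ i, z (Sum.inr i) ^ 2 < 9) ∧ (∃ i, 1 < z (Sum.inr i) ^ 2) ∧
    toBase (fun i => z (Sum.inl (Sum.inl i))) ∈ P.S ∧ 0 < z (Sum.inl (Sum.inr ())) ∧
    lift P.h (toBase fun i => z (Sum.inl (Sum.inl i)))
      (WithLp.toLp 2 fun i => z (Sum.inl (Sum.inr ())) * z (Sum.inr i)) ∈ P.toChart.Uc}

theorem isOpen_fib (y : Bix m k ⊕ Unit → ℝ) : IsOpen (fib (Fib P) y) := by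
  set x := toBase fun i => y (Sum.inl i) with hx
  set t := y (Sum.inr ()) with ht
  have h1 : IsOpen {v : Fin k → ℝ | ∀ i, v i ^ 2 < 9} := by
    simp only [Set.ofPred_forall]
    exact isOpen_iInter_of_finite fun i => isOpen_lt (by fun_prop) continuous_const
  have h2 : IsOpen {v : Fin k → ℝ | ∃ i, 1 < v i ^ 2} := by
    simp only [Set.ofPred_exists]
    exact isOpen_iUnion fun i => isOpen_lt continuous_const (by fun_prop)
  have h3 : IsOpen {v : Fin k → ℝ |
      lift P.h x (WithLp.toLp 2 fun i => t * v i) ∈ P.toChart.Uc} := by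
    refine (isOpen_Uc P.toChart).preimage (Continuous.prodMk continuous_const ?_)
    exact continuous_mkC.comp (continuous_const.prodMk (continuous_const.add
      ((PiLp.continuous_toLp 2 _).comp (by fun_prop))))
  have e : fib (Fib P) y = {v : Fin k → ℝ | ∀ i, v i ^ 2 < 9} ∩ ({v | ∃ i, 1 < v i ^ 2} ∩
      ({_v | x ∈ P.S ∧ 0 < t} ∩
        {v | lift P.h x (WithLp.toLp 2 fun i => t * v i) ∈ P.toChart.Uc})) := by
    ext v
    simp only [fib, Fib, mem_inter_iff, mem_ofPred_eq, Sum.elim_inr, Sum.elim_inl, hx, ht]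
    tauto
  rw [e]
  refine h1.inter (h2.inter (IsOpen.inter ?_ h3))
  by_cases h : x ∈ P.S ∧ 0 < t <;> simp [h]

theorem fib_bdd (y : Bix m k ⊕ Unit → ℝ) : Bornology.IsBounded (fib (Fib P) y) := by
  refine (isBounded_closedBall (x := (0 : Fin k → ℝ)) (r := 3)).subset fun v hv => ?_
  rw [mem_closedBall, dist_zero_right, pi_norm_le_iff_of_nonneg (by norm_num)]
  intro i
  rw [Real.norm_eq_abs]
  exact abs_le_of_sq_le_sq (by norm_num; exact (hv.1 i).le) (by norm_num)

theorem SA.fibSet (hp : SAProjStmt) : SA (Fib P) := by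
  let x' : Bix m k → ((Bix m k ⊕ Unit) ⊕ Fin k) ⊕ Fin k := fun i => .inl (.inl (.inl i))
  let t' : ((Bix m k ⊕ Unit) ⊕ Fin k) ⊕ Fin k := .inl (.inl (.inr ()))
  have hh := P.sa_h.reindex (Sum.elim x' Sum.inr :
    Bix m k ⊕ Fin k → ((Bix m k ⊕ Unit) ⊕ Fin k) ⊕ Fin k)
  let q : (Fin m ⊕ Fin m) ⊕ (Fin k ⊕ Fin k) →
      MvPolynomial (((Bix m k ⊕ Unit) ⊕ Fin k) ⊕ Fin k) ℝ :=
    Sum.elim (fun j => X (x' (Sum.inl j))) (Sum.elim (fun i => X (x' (Sum.inr i)))
      fun i => X (Sum.inr i) + X t' * X (Sum.inl (Sum.inr i)))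
  have hU := P.sa_Uc.preimage q
  have h1 : SA {z : (Bix m k ⊕ Unit) ⊕ Fin k → ℝ | ∀ i, z (Sum.inr i) ^ 2 < 9} :=
    (SA.all fun i : Fin k => SA.lt (X (Sum.inr i) ^ 2) (C 9)).congr fun z => by simp
  have h2 : SA {z : (Bix m k ⊕ Unit) ⊕ Fin k → ℝ | ∃ i, 1 < z (Sum.inr i) ^ 2} :=
    (SA.iUnion fun i : Fin k => (SA.lt (C 1) (X (Sum.inr i) ^ 2))).of_eq (by ext z; simp)
  refine (h1.inter (h2.inter (((SA.coord_pos (Sum.inl (Sum.inr ()))).inter
    ((hh.inter hU).exists' hp))))).of_eq ?_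
  ext z
  simp only [Fib, mem_inter_iff, mem_ofPred_eq, Function.comp_def]
  refine and_congr_right fun _ => and_congr_right fun _ => ?_
  set x : Cn m × Rn k := toBase fun i => z (Sum.inl (Sum.inl i)) with hx
  have key : ∀ hv : Fin k → ℝ, (fun j => eval (Sum.elim z hv) (q j)) =
      rcMod (x.1, mkC x.2 (WithLp.toLp 2 hv +
        WithLp.toLp 2 fun i => z (Sum.inl (Sum.inr ())) * z (Sum.inr i))) := by
    intro hv
    funext j
    rcases j with (j | j) | (j | j) <;>
      simp [q, x', t', rcMod, rc, mkC, hx, toBase]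
  constructor
  · rintro ⟨ht, hv, ⟨y, hy, hye⟩, w, hw, hwe⟩
    have hy' : y = x := by
      rw [hx, ← toBase_rcBase y]
      congr 1
      funext i
      exact (congrFun hye (Sum.inl i)).symm
    subst hy'
    have hv' : WithLp.toLp 2 hv = P.h x := by
      ext i
      exact congrFun hye (Sum.inr i)
    refine ⟨hy, ht, ?_⟩
    rw [key] at hwe
    rw [rcMod_injective hwe, hv'] at hw
    exact hw
  · rintro ⟨hS, ht, hU'⟩
    refine ⟨ht, fun i => P.h x i, ⟨x, hS, ?_⟩, ?_⟩
    · funext i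
      rcases i with i | i
      · simp only [Sum.elim_inl, x', hx, rcBase_toBase]
      · rfl
    · rw [key]
      exact ⟨_, hU', by rfl⟩

/-- Every cylinder over the edge has a point with nonempty fibre. -/
theorem fib_dense {c : Bix m k → ℝ} {r δ : ℝ} (hr : 0 < r) (hδ : 0 < δ) (hc : toBase c ∈ P.S) :
    ∃ y ∈ cyl c r δ, ∃ v, Sum.elim y v ∈ Fib P := by
  set x₀ := toBase c with hx₀
  set p₀ := lift P.h x₀ 0 with hp₀
  have hW := P.edge_W x₀ hc
  have hcl : p₀ ∈ closure P.toChart.Uc := by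
    obtain ⟨y, hy, hyt⟩ := mem_closure_iff_seq_limit.1 (P.edge_frontier x₀ hc).1
    have hB := (P.maps_ψ p₀ hW).2
    have hev : ∀ᶠ j in atTop, y j ∈ P.B := hyt.eventually (P.isOpen_B.mem_nhds hB)
    have hπ : Tendsto (fun j => P.π (y j)) atTop (𝓝 p₀) := by
      have h := ((P.diff_π.continuousOn).continuousAt (P.isOpen_B.mem_nhds hB)).tendsto.comp hyt
      rwa [P.π_ψ p₀ hW] at h
    refine mem_closure_of_tendsto hπ (hev.mono fun j hj => ?_)
    have hZ : y j ∈ D.Z := (D.U_eq ▸ hy j).1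
    refine ⟨P.maps_π _ ⟨hZ, hj⟩, ?_⟩
    rw [P.ψ_π _ ⟨hZ, hj⟩]
    exact hy j
  set base : Mod m k → Cn m × Rn k := fun p => (p.1, rv p.2) with hbase
  set off : Mod m k → Rn k := fun p => iv p.2 - P.h (base p) with hoff
  have hbc : Continuous base := continuous_fst.prodMk ((PiLp.continuous_toLp 2 _).comp
    (continuous_pi fun i => Complex.continuous_re.comp
      ((PiLp.continuous_apply 2 _ i).comp continuous_snd)))
  have hb0 : base p₀ = x₀ := by
    refine Prod.ext rfl ?_
    ext i; simp [hbase, hp₀, lift, rv, mkC]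
  have hoc : ContinuousAt off p₀ := by
    refine ContinuousAt.sub ((PiLp.continuous_toLp 2 _).comp (continuous_pi fun i =>
      Complex.continuous_im.comp ((PiLp.continuous_apply 2 _ i).comp continuous_snd))).continuousAt ?_
    exact ContinuousAt.comp (by
      rw [hb0]; exact P.smooth_h.continuousOn.continuousAt (P.isOpen_S.mem_nhds hc))
      hbc.continuousAt
  have ho0 : off p₀ = 0 := by
    simp only [hoff, hb0]
    ext i
    simp [hp₀, lift, iv, mkC]
  have hn1 : ∀ᶠ p in 𝓝 p₀, rcBase (base p) ∈ ball c r :=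
    ((continuous_rcBase.comp hbc).tendsto' p₀ c (by simp [hb0, hx₀, rcBase_toBase])).eventually
      (ball_mem_nhds c hr)
  have hn2 : ∀ᶠ p in 𝓝 p₀, base p ∈ P.S :=
    hbc.continuousAt.eventually (P.isOpen_S.mem_nhds (by rw [hb0]; exact hc))
  have hn3 : ∀ᶠ p in 𝓝 p₀, ‖(off p).ofLp‖ < δ := by
    have hcont : ContinuousAt (fun p => (off p).ofLp) p₀ :=
      (PiLp.continuous_ofLp 2 _).continuousAt.comp hoc
    have h0 := hcont.norm.tendsto
    rw [ho0] at h0
    simp only [WithLp.ofLp_zero, norm_zero] at h0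
    exact h0.eventually (gt_mem_nhds hδ)
  obtain ⟨p, hp, h1, h2, h3⟩ :=
    ((mem_closure_iff_frequently.1 hcl).and_eventually (hn1.and (hn2.and hn3))).exists
  set a : Fin k → ℝ := (off p).ofLp with ha
  have hp_eq : lift P.h (base p) (off p) = p := by
    refine Prod.ext rfl ?_
    ext i
    simp [hoff, lift, mkC, hbase, rv, iv]
  have ha0 : a ≠ 0 := by
    intro h0
    have hz : off p = 0 := by
      rw [← WithLp.toLp_ofLp (p := 2) (off p), ← ha, h0, WithLp.toLp_zero]
    rw [hz] at hp_eq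
    refine (P.edge_frontier (base p) h2).2 ?_
    rw [hp_eq]
    exact hp.2
  have hpos : 0 < ‖a‖ := norm_pos_iff.2 ha0
  refine ⟨pt (rcBase (base p)) (‖a‖ / 2), pt_mem_cyl.2 ⟨h1, by positivity, by linarith⟩,
    fun i => a i / (‖a‖ / 2), ?_⟩
  simp only [Fib, mem_ofPred_eq, Sum.elim_inl, Sum.elim_inr, pt_inl, pt_inr]
  have hk' : ∀ i, (‖a‖ / 2) * (a i / (‖a‖ / 2)) = a i := fun i => by field_simp
  refine ⟨fun i => ?_, ?_, by rwa [show (fun i => rcBase (base p) i) = rcBase (base p) from rfl,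
    toBase_rcBase], by positivity, ?_⟩
  · rw [div_pow, div_lt_iff₀ (by positivity)]
    have := norm_le_pi_norm a i
    rw [Real.norm_eq_abs] at this
    calc a i ^ 2 = |a i| ^ 2 := (sq_abs _).symm
      _ ≤ ‖a‖ ^ 2 := by gcongr
      _ < 9 * (‖a‖ / 2) ^ 2 := by linarith [pow_pos hpos 2]
  · by_contra hne
    push Not at hne
    have : ‖a‖ ≤ ‖a‖ / 2 := by
      rw [pi_norm_le_iff_of_nonneg (by positivity)]
      intro i
      have hi := hne i
      rw [div_pow, div_le_iff₀ (by positivity), one_mul] at hi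
      rw [Real.norm_eq_abs]
      exact abs_le_of_sq_le_sq hi (by positivity)
    linarith
  · rw [toBase_rcBase]
    simp only [hk']
    rw [show WithLp.toLp 2 (fun i => a i) = off p from WithLp.toLp_ofLp (p := 2) (off p), hp_eq]
    exact hp

end

end Vale.Agent.P274.Full.HornWin
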