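import Vale.Agent.P274.Full.Horn.Bound
import Mathlib.Analysis.Calculus.MeanValue
import Mathlib.Analysis.InnerProductSpace.PiL2

/-!
Partial derivative bounds on a cylinder give Lipschitz bounds.
-/

open Set Filter Topology Metric

namespace Vale.Agent.P274.Full.HornWin

noncomputable section

variable {ι : Type} [Fintype ι]

/-- Bounded base derivatives give a Lipschitz bound at fixed height. -/
theorem lip_base {f : (ι ⊕ Unit → ℝ) → ℝ} {c : ι → ℝ} {r δ : ℝ} (hr : 0 < r)
    (hd : DiffCyl f c r δ) {M : ι → ℝ}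
    (hM : ∀ i, ∀ y ∈ cyl c r δ, |lineDeriv ℝ f y (unitVec (Sum.inl i))| ≤ M i)
    {x x' : ι → ℝ} (hx : x ∈ ball c r) (hx' : x' ∈ ball c r) {t : ℝ} (ht : t ∈ Ioo 0 δ) :
    |f (pt x' t) - f (pt x t)| ≤ ∑ i, M i * |x' i - x i| := by
  classical
  have hmem : ∀ z : ι → ℝ, (∀ i, z i = x i ∨ z i = x' i) → z ∈ ball c r := by
    intro z hz
    rw [mem_ball, dist_pi_lt_iff hr]
    rw [mem_ball, dist_pi_lt_iff hr] at hx hx'
    intro i
    rcases hz i with h | h <;> rw [h]
    · exact hx i
    · exact hx' i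
  suffices h : ∀ s : Finset ι,
      |f (pt (fun i => if i ∈ s then x' i else x i) t) - f (pt x t)| ≤
        ∑ i ∈ s, M i * |x' i - x i| by
    simpa using h Finset.univ
  intro s
  induction s using Finset.induction_on with
  | empty => simp
  | insert a s has ih =>
    set z : ι → ℝ := fun i => if i ∈ s then x' i else x i with hz
    set u : ι → ℝ := fun i => unitVec (Sum.inl a) (Sum.inl i) with hu
    have hline : ∀ w ∈ uIcc 0 (x' a - x a), (fun i => z i + w * u i) ∈ ball c r := by
      intro w hw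
      rw [mem_ball, dist_pi_lt_iff hr]
      intro i
      rw [Real.dist_eq]
      have hzx : z ∈ ball c r := hmem z fun i => by by_cases h : i ∈ s <;> simp [hz, h]
      rw [mem_ball, dist_pi_lt_iff hr] at hzx hx hx'
      rcases eq_or_ne i a with rfl | hi
      · have hza : z i = x i := by simp [hz, has]
        simp only [hu, unitVec_self, mul_one, hza]
        have h1 := hx i
        have h2 := hx' i
        rw [Real.dist_eq, abs_lt] at h1 h2
        rcases mem_uIcc.1 hw with hw | hw <;> rw [abs_lt] <;> constructor <;>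
          linarith [hw.1, hw.2]
      · simpa [hu, unitVec_ne (show (Sum.inl i : ι ⊕ Unit) ≠ Sum.inl a by simpa using hi),
          Real.dist_eq] using hzx i
    have hder : ∀ w ∈ uIcc 0 (x' a - x a),
        HasDerivAt (fun w => f (pt (fun i => z i + w * u i) t))
          (lineDeriv ℝ f (pt (fun i => z i + w * u i) t) (unitVec (Sum.inl a))) w := by
      intro w hw
      have h := hasDerivAt_line (f := f) (y := pt z t) (a := w) (v := unitVec (Sum.inl a))
        (by rw [pt_add]; exact hd _ (pt_mem_cyl.2 ⟨hline w hw, ht⟩) _)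
      simp only [pt_add] at h
      exact h
    have hstep := (convex_uIcc (0 : ℝ) (x' a - x a)).norm_image_sub_le_of_norm_hasDerivWithin_le
      (fun w hw => (hder w hw).hasDerivWithinAt)
      (fun w hw => by
        rw [Real.norm_eq_abs]
        exact hM a _ (pt_mem_cyl.2 ⟨hline w hw, ht⟩))
      left_mem_uIcc right_mem_uIcc
    have e0 : (fun i => z i + 0 * u i) = z := by funext i; ring
    have e1 : (fun i => z i + (x' a - x a) * u i) =
        fun i => if i ∈ insert a s then x' i else x i := by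
      funext i
      rcases eq_or_ne i a with rfl | hi
      · simp [hz, hu, unitVec_self, has]
      · simp [hz, hu, hi,
          unitVec_ne (show (Sum.inl i : ι ⊕ Unit) ≠ Sum.inl a by simpa using hi)]
    simp only [e0, e1, Real.norm_eq_abs, sub_zero] at hstep
    rw [Finset.sum_insert has]
    exact (abs_sub_le _ (f (pt z t)) _).trans (add_le_add hstep ih)

/-- A derivative bounded by `1 / t` gives a Lipschitz bound for the product with `t`. -/
theorem lip_last {f : (ι ⊕ Unit → ℝ) → ℝ} {c x : ι → ℝ} {r δ B : ℝ}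
    (hd : DiffCyl f c r δ) (hB : ∀ y ∈ cyl c r δ, |f y| ≤ B)
    (hL : ∀ y ∈ cyl c r δ, |y (Sum.inr ()) * lineDeriv ℝ f y (unitVec (Sum.inr ()))| ≤ 1)
    (hx : x ∈ ball c r) {s t : ℝ} (hs : s ∈ Ico 0 δ) (ht : t ∈ Ico 0 δ) :
    |s * f (pt x s) - t * f (pt x t)| ≤ (B + 1) * |s - t| := by
  rcases eq_or_lt_of_le hs.1 with rfl | hs0
  · rcases eq_or_lt_of_le ht.1 with rfl | ht0
    · simp
    have h := hB _ (pt_mem_cyl.2 ⟨hx, ht0, ht.2⟩)
    rw [zero_mul, zero_sub, zero_sub, abs_neg, abs_neg, abs_mul, abs_of_pos ht0, mul_comm (B + 1)]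
    exact mul_le_mul_of_nonneg_left (by linarith) ht0.le
  rcases eq_or_lt_of_le ht.1 with rfl | ht0
  · have h := hB _ (pt_mem_cyl.2 ⟨hx, hs0, hs.2⟩)
    rw [zero_mul, sub_zero, sub_zero, abs_mul, abs_of_pos hs0, mul_comm (B + 1)]
    exact mul_le_mul_of_nonneg_left (by linarith) hs0.le
  have h := (convex_Ioo (0 : ℝ) δ).norm_image_sub_le_of_norm_hasDerivWithin_le
    (f := fun w => w * f (pt x w)) (C := B + 1)
    (fun w hw => ((hasDerivAt_id w).mul
      (hasDerivAt_last (hd _ (pt_mem_cyl.2 ⟨hx, hw⟩) _))).hasDerivWithinAt)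
    (fun w hw => by
      have h1 := hB _ (pt_mem_cyl.2 ⟨hx, hw⟩)
      have h2 := hL _ (pt_mem_cyl.2 ⟨hx, hw⟩)
      simp only [pt_inr] at h2
      rw [Real.norm_eq_abs]
      simp only [one_mul, id]
      exact (abs_add_le _ _).trans (add_le_add h1 h2))
    (show t ∈ Ioo 0 δ from ⟨ht0, ht.2⟩) (show s ∈ Ioo 0 δ from ⟨hs0, hs.2⟩)
  simpa [Real.norm_eq_abs] using h

/-- The Euclidean norm is at most the sum of the absolute values. -/
theorem norm_toLp_le {k : ℕ} (a : Fin k → ℝ) :
    ‖(WithLp.toLp 2 a : EuclideanSpace ℝ (Fin k))‖ ≤ ∑ i, |a i| := by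
  rw [EuclideanSpace.norm_eq, Real.sqrt_le_left (Finset.sum_nonneg fun i _ => abs_nonneg _)]
  simpa [sq_abs] using Finset.sum_sq_le_sq_sum_of_nonneg (s := Finset.univ)
    (f := fun i => |a i|) fun i _ => abs_nonneg (a i)

end

end Vale.Agent.P274.Full.HornWin
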