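import Vale.Agent.P274.Full.Horn.Fibre
import Vale.Agent.P274.Full.Horn.Lip
import Vale.Agent.P274.Full.Tool.Smooth

/-!
Above a window of a generic edge there is a Lipschitz path of points of `U`.
-/

open MvPolynomial Set Filter Topology Metric

namespace Vale.Agent.P274.Full

noncomputable section

namespace HornWin

variable {ι : Type} [Fintype ι] (hp : SAProjStmt)
include hp

/-- Finitely many functions are differentiable in all coordinates on a common window. -/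
theorem exists_diff {J : Type} [Fintype J] [Nonempty J] {c : ι → ℝ} {r δ : ℝ} (hr : 0 < r)
    (hδ : 0 < δ) {f : J → (ι ⊕ Unit → ℝ) → ℝ} (hf : ∀ l, SAFun (cyl c r δ) (f l)) :
    ∃ (c' : ι → ℝ) (r' δ' : ℝ), 0 < r' ∧ 0 < δ' ∧ δ' ≤ δ ∧ ball c' r' ⊆ ball c r ∧
      ∀ l, DiffCyl (f l) c' r' δ' := by
  classical
  set S : Set (ι ⊕ Unit → ℝ) :=
    {y | ∀ p : J × (ι ⊕ Unit), y ∈ cyl c r δ ∧ LineDifferentiableAt ℝ (f p.1) y (unitVec p.2)}
  have hS : SA S := SA.all fun p => ((hf p.1).lineDeriv' hp (isOpen_cyl c r δ) (unitVec p.2)).1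
  obtain ⟨c', r', δ', hr', hδ', hsub, hcyl⟩ := window hp hS hr (fun c' r' δ' hr' hδ' hsub => by
    have hV : cyl c' r' (min δ' δ) ⊆ cyl c r δ := cyl_mono hsub (min_le_right _ _)
    have key : ∀ T : Finset J, ∃ W ⊆ cyl c' r' (min δ' δ), IsOpen W ∧ W.Nonempty ∧
        ∀ l ∈ T, ∀ x ∈ W, ContDiffAt ℝ (⊤ : ℕ∞) (f l) x := by
      intro T
      induction T using Finset.induction_on with
      | empty =>
        exact ⟨_, Subset.rfl, isOpen_cyl _ _ _, ⟨pt c' (min δ' δ / 2), pt_mem_cyl.2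
          ⟨mem_ball_self hr', half_pos (lt_min hδ' hδ), half_lt_self (lt_min hδ' hδ)⟩⟩,
          by simp⟩
      | insert l T _ ih =>
        obtain ⟨W, hWs, hWo, hWn, hW⟩ := ih
        obtain ⟨W', hW's, hW'o, hW'n, hW'⟩ :=
          SAFun.exists_smooth_subset hp saInterior (hf l) hWo (hWs.trans hV) hWn
        refine ⟨W', hW's.trans hWs, hW'o, hW'n, fun i hi x hx => ?_⟩
        rcases Finset.mem_insert.1 hi with rfl | hi
        · exact hW' x hx
        · exact hW i hi x (hW's hx)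
    obtain ⟨W, hWs, -, ⟨y, hy⟩, hW⟩ := key Finset.univ
    exact ⟨y, cyl_mono Subset.rfl (min_le_left _ _) (hWs hy), fun p => ⟨hV (hWs hy),
      ((hW p.1 (Finset.mem_univ _) y hy).differentiableAt (by simp)).lineDifferentiableAt⟩⟩)
  refine ⟨c', r', min δ' δ, hr', lt_min hδ' hδ, min_le_right _ _, hsub, fun l y hy j => ?_⟩
  exact (hcyl (cyl_mono Subset.rfl (min_le_left _ _) hy) (l, j)).2

/-- Uniform derivative bounds for finitely many bounded functions. -/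
theorem exists_bound {J : Type} [Fintype J] {c : ι → ℝ} {r δ B : ℝ} (hr : 0 < r) (hδ : 0 < δ)
    {f : J → (ι ⊕ Unit → ℝ) → ℝ} (hd : ∀ l, DiffCyl (f l) c r δ)
    (hf : ∀ l, SAFun (cyl c r δ) (f l)) (hB : ∀ l, ∀ y ∈ cyl c r δ, |f l y| ≤ B) :
    ∃ (c' : ι → ℝ) (r' δ' M : ℝ), 0 < r' ∧ 0 < δ' ∧ δ' ≤ δ ∧ ball c' r' ⊆ ball c r ∧ 0 ≤ M ∧
      ∀ l, ∀ y ∈ cyl c' r' δ',
        |y (Sum.inr ()) * lineDeriv ℝ (f l) y (unitVec (Sum.inr ()))| ≤ 1 ∧
        ∀ i, |lineDeriv ℝ (f l) y (unitVec (Sum.inl i))| ≤ M := by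
  classical
  suffices h : ∀ T : Finset (J × Option ι),
      ∃ (c' : ι → ℝ) (r' δ' M : ℝ), 0 < r' ∧ 0 < δ' ∧ δ' ≤ δ ∧ ball c' r' ⊆ ball c r ∧ 0 ≤ M ∧
        ∀ p ∈ T, ∀ y ∈ cyl c' r' δ', match p.2 with
          | none => |y (Sum.inr ()) * lineDeriv ℝ (f p.1) y (unitVec (Sum.inr ()))| ≤ 1
          | some i => |lineDeriv ℝ (f p.1) y (unitVec (Sum.inl i))| ≤ M by
    obtain ⟨c', r', δ', M, h1, h2, h3, h4, h5, h6⟩ := h Finset.univ
    exact ⟨c', r', δ', M, h1, h2, h3, h4, h5, fun l y hy =>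
      ⟨h6 (l, none) (Finset.mem_univ _) y hy, fun i => h6 (l, some i) (Finset.mem_univ _) y hy⟩⟩
  intro T
  induction T using Finset.induction_on with
  | empty => exact ⟨c, r, δ, 0, hr, hδ, le_rfl, Subset.rfl, le_rfl, by simp⟩
  | insert q T _ ih =>
    obtain ⟨c', r', δ', M, h1, h2, h3, h4, h5, h6⟩ := ih
    obtain ⟨l, o⟩ := q
    have hsub := cyl_mono h4 h3
    have hdl := (hd l).mono h4 h3
    have hfl : SAFun (cyl c' r' δ') (f l) := SAMap.mono (hf l) (SA.cyl c' h1 δ') hsub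
    have hBl : ∀ y ∈ cyl c' r' δ', |f l y| ≤ B := fun y hy => hB l y (hsub hy)
    cases o with
    | none =>
      obtain ⟨c'', r'', δ'', g1, g2, g3, g4, g5⟩ := last_bound hp h1 h2 hdl hfl hBl
      refine ⟨c'', r'', δ'', M, g1, g2, g3.trans h3, g4.trans h4, h5, fun p hp' y hy => ?_⟩
      rcases Finset.mem_insert.1 hp' with rfl | hp'
      · exact g5 y hy
      · exact h6 p hp' y (cyl_mono g4 g3 hy)
    | some i =>
      obtain ⟨c'', r'', δ'', M', g1, g2, g3, g4, g5⟩ := base_bound hp i h1 h2 hdl hfl hBl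
      refine ⟨c'', r'', δ'', max M M', g1, g2, g3.trans h3, g4.trans h4,
        le_max_of_le_left h5, fun p hp' y hy => ?_⟩
      rcases Finset.mem_insert.1 hp' with rfl | hp'
      · exact (g5 y hy).trans (le_max_right _ _)
      · have h := h6 p hp' y (cyl_mono g4 g3 hy)
        obtain ⟨l', o'⟩ := p
        cases o' with
        | none => exact h
        | some j => exact h.trans (le_max_left _ _)

end HornWin

open HornWin in
/-- Above a window of the edge there is a path of points of `U`. -/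
theorem horn (hp : SAProjStmt) : HornStmt := by
  intro N m k D P
  have hk : Nonempty (Fin k) := ⟨⟨0, P.k_pos⟩⟩
  have hpre : IsOpen (toBase ⁻¹' P.S : Set (Bix m k → ℝ)) := P.isOpen_S.preimage continuous_toBase
  have h0 : (0 : Bix m k → ℝ) ∈ toBase ⁻¹' P.S := by
    rw [mem_preimage, show toBase (0 : Bix m k → ℝ) = 0 by
      refine Prod.ext ?_ ?_ <;> · ext i; rfl]
    exact P.zero_mem_S
  obtain ⟨r₀, hr₀, hball⟩ := Metric.isOpen_iff.1 hpre 0 h0
  have hF := SA.fibSet P hp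
  -- a window over which all small fibres meet the shell
  obtain ⟨c₁, r₁, δ₁, hr₁, hδ₁, hsub₁, hcyl₁⟩ := window hp (hF.exists' hp) hr₀
    (fun c' r' δ' hr' hδ' hsub => fib_dense P hr' hδ' (hball (hsub (mem_ball_self hr'))))
  obtain ⟨s, hs, hsmem⟩ := select hp hF P.k_pos (isOpen_fib P) (fib_bdd P)
  set f : Fin k → (Bix m k ⊕ Unit → ℝ) → ℝ := fun l y => s y l with hf
  have hfs : ∀ l, SAFun (cyl c₁ r₁ δ₁) (f l) := fun l =>
    SAMap.apply hp (SAMap.mono hs (SA.cyl c₁ hr₁ δ₁) hcyl₁) l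
  have hmem : ∀ y ∈ cyl c₁ r₁ δ₁, Sum.elim y (s y) ∈ Fib P := fun y hy =>
    hsmem y (hcyl₁ hy)
  have hbd : ∀ l, ∀ y ∈ cyl c₁ r₁ δ₁, |f l y| ≤ 3 := fun l y hy =>
    abs_le_of_sq_le_sq (by
      have h : f l y ^ 2 < 9 := (hmem y hy).1 l
      linarith) (by norm_num)
  obtain ⟨c₂, r₂, δ₂, hr₂, hδ₂, hδ₂le, hsub₂, hd⟩ := exists_diff hp hr₁ hδ₁ hfs
  obtain ⟨c₃, r₃, δ₃, M, hr₃, hδ₃, hδ₃le, hsub₃, hM, hbound⟩ :=
    exists_bound hp (B := 3) hr₂ hδ₂ hd
      (fun l => SAMap.mono (hfs l) (SA.cyl c₂ hr₂ δ₂) (cyl_mono hsub₂ hδ₂le))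
      (fun l y hy => hbd l y (cyl_mono hsub₂ hδ₂le hy))
  have hsub : cyl c₃ r₃ δ₃ ⊆ cyl c₁ r₁ δ₁ :=
    cyl_mono (hsub₃.trans hsub₂) (hδ₃le.trans hδ₂le)
  set e : Cn m × Rn k → ℝ → Rn k :=
    fun x t => WithLp.toLp 2 fun l => t * f l (pt (rcBase x) t) with he
  set S' : Set (Cn m × Rn k) := rcBase ⁻¹' ball c₃ r₃ with hS'
  set L : ℝ := M * Fintype.card (Bix m k) with hL
  have hlipx : ∀ x ∈ S', ∀ y ∈ S', ∀ t ∈ Icc (0 : ℝ) (δ₃ / 2),
      ‖e x t - e y t‖ ≤ (k : ℝ) * L * t * ‖x - y‖ := by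
    intro x hx y hy t ht
    rcases eq_or_lt_of_le ht.1 with rfl | ht0
    · have h : ∀ x, e x 0 = 0 := fun x => by ext l; simp [he]
      simp [h]
    have hsum : ∑ i, M * |rcBase x i - rcBase y i| ≤ L * ‖x - y‖ := by
      refine (Finset.sum_le_card_nsmul _ _ (M * ‖x - y‖) fun i _ =>
        mul_le_mul_of_nonneg_left ?_ hM).trans_eq ?_
      · have h1 : ∀ j, ‖(x.1 - y.1) j‖ ≤ ‖x - y‖ := fun j =>
          (PiLp.norm_apply_le (x.1 - y.1) j).trans (norm_fst_le (x - y))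
        rcases i with (i | i) | i
        · exact (by simpa using Complex.abs_re_le_norm ((x.1 - y.1) i) :
            |(x.1 i).re - (y.1 i).re| ≤ ‖(x.1 - y.1) i‖).trans (h1 i)
        · exact (by simpa using Complex.abs_im_le_norm ((x.1 - y.1) i) :
            |(x.1 i).im - (y.1 i).im| ≤ ‖(x.1 - y.1) i‖).trans (h1 i)
        · exact (PiLp.norm_apply_le (x.2 - y.2) i).trans (norm_snd_le (x - y))
      · rw [Finset.card_univ, nsmul_eq_mul, hL]; ring
    have hterm : ∀ l, |t * f l (pt (rcBase x) t) - t * f l (pt (rcBase y) t)| ≤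
        t * (L * ‖x - y‖) := by
      intro l
      rw [← mul_sub, abs_mul, abs_of_pos ht0]
      refine mul_le_mul_of_nonneg_left ((lip_base (M := fun _ => M) hr₃
        ((hd l).mono hsub₃ hδ₃le) (fun i z hz => (hbound l z hz).2 i) hy hx
        ⟨ht0, by linarith [ht.2]⟩).trans hsum) ht0.le
    calc ‖e x t - e y t‖ = ‖(WithLp.toLp 2 fun l =>
          t * f l (pt (rcBase x) t) - t * f l (pt (rcBase y) t) : Rn k)‖ := rfl
      _ ≤ ∑ l, |t * f l (pt (rcBase x) t) - t * f l (pt (rcBase y) t)| := norm_toLp_le _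
      _ ≤ ∑ _l : Fin k, t * (L * ‖x - y‖) := Finset.sum_le_sum fun l _ => hterm l
      _ = _ := by simp; ring
  have hlipt : ∀ x ∈ S', ∀ s ∈ Icc (0 : ℝ) (δ₃ / 2), ∀ t ∈ Icc (0 : ℝ) (δ₃ / 2),
      ‖e x s - e x t‖ ≤ (k : ℝ) * 4 * |s - t| := by
    intro x hx s hs' t ht
    have hterm : ∀ l, |s * f l (pt (rcBase x) s) - t * f l (pt (rcBase x) t)| ≤ 4 * |s - t| := by
      intro l
      have h := lip_last (B := 3) ((hd l).mono hsub₃ hδ₃le)
        (fun z hz => hbd l z (hsub hz)) (fun z hz => (hbound l z hz).1) hx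
        (s := s) (t := t) ⟨hs'.1, by linarith [hs'.2]⟩ ⟨ht.1, by linarith [ht.2]⟩
      norm_num at h
      exact h
    calc ‖e x s - e x t‖ = ‖(WithLp.toLp 2 fun l =>
          s * f l (pt (rcBase x) s) - t * f l (pt (rcBase x) t) : Rn k)‖ := rfl
      _ ≤ ∑ l, |s * f l (pt (rcBase x) s) - t * f l (pt (rcBase x) t)| := norm_toLp_le _
      _ ≤ ∑ _l : Fin k, 4 * |s - t| := Finset.sum_le_sum fun l _ => hterm l
      _ = _ := by simp; ring
  set K : ℝ := (k : ℝ) * L + (k : ℝ) * 4 with hK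
  have hL0 : 0 ≤ L := mul_nonneg hM (Nat.cast_nonneg _)
  have hK1 : (k : ℝ) * L ≤ K := le_add_of_nonneg_right (by positivity)
  have hK2 : (k : ℝ) * 4 ≤ K := le_add_of_nonneg_left (by positivity)
  have hK0 : 0 ≤ K := le_trans (by positivity) hK2
  refine ⟨{ S' := S', isOpen_S' := isOpen_ball.preimage continuous_rcBase,
            nonempty_S' := ⟨toBase c₃, ?_⟩, sub := fun x hx => ?_, t₀ := δ₃ / 2,
            t₀_pos := half_pos hδ₃, C := K, e := e, cont := ?_, e_zero := fun x _ => ?_,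
            mem := fun x hx t ht => ?_, lip_x := fun x hx y hy t ht => ?_,
            lip_t := fun x hx s hs' t ht => ?_ }⟩
  · rw [hS', mem_preimage, rcBase_toBase]
    exact mem_ball_self hr₃
  · rw [← toBase_rcBase x]
    exact hball (hsub₁ (hsub₂ (hsub₃ hx)))
  · refine LipschitzOnWith.continuousOn (K := Real.toNNReal (K * (δ₃ / 2) + K))
      (LipschitzOnWith.of_dist_le_mul fun p hp' q hq => ?_)
    obtain ⟨x, u⟩ := p
    obtain ⟨y, v⟩ := q
    rw [Real.coe_toNNReal _ (by positivity), dist_eq_norm, dist_eq_norm, Function.uncurry_apply_pair,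
      Function.uncurry_apply_pair]
    have h1 := hlipx x hp'.1 y hq.1 u hp'.2
    have h2 := hlipt y hq.1 u hp'.2 v hq.2
    have n1 : ‖x - y‖ ≤ ‖(x, u) - (y, v)‖ := norm_fst_le ((x, u) - (y, v))
    have n2 : |u - v| ≤ ‖(x, u) - (y, v)‖ := norm_snd_le ((x, u) - (y, v))
    calc ‖e x u - e y v‖ ≤ ‖e x u - e y u‖ + ‖e y u - e y v‖ := norm_sub_le_norm_sub_add_norm_sub _ _ _
      _ ≤ (k : ℝ) * L * u * ‖x - y‖ + (k : ℝ) * 4 * |u - v| := add_le_add h1 h2
      _ ≤ K * (δ₃ / 2) * ‖(x, u) - (y, v)‖ + K * ‖(x, u) - (y, v)‖ :=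
          add_le_add (mul_le_mul (mul_le_mul hK1 hp'.2.2 hp'.2.1 hK0) n1 (norm_nonneg _)
            (by positivity)) (mul_le_mul hK2 n2 (abs_nonneg _) hK0)
      _ = _ := by ring
  · ext l; simp [he]
  · have hy : pt (rcBase x) t ∈ cyl c₁ r₁ δ₁ :=
      hsub (pt_mem_cyl.2 ⟨hx, ht.1, by linarith [ht.2, hδ₃]⟩)
    have h := (hmem _ hy).2.2.2.2
    simp only [Sum.elim_inl, Sum.elim_inr, pt_inl, pt_inr] at h
    rw [show (fun i => rcBase x i) = rcBase x from rfl, toBase_rcBase] at h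
    exact h
  · exact (hlipx x hx y hy t ht).trans
      (mul_le_mul_of_nonneg_right (mul_le_mul_of_nonneg_right hK1 ht.1) (norm_nonneg _))
  · exact (hlipt x hx s hs' t ht).trans (mul_le_mul_of_nonneg_right hK2 (abs_nonneg _))

end

end Vale.Agent.P274.Full
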